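import Mathlib

/-!
P022D, Lemma U: freeness of a module over truncated power series rings / group rings of cyclic
`2`-groups, in the socle form: `Soc σ J N` says that the kernel of `σ` on `N` lies in `J N`.
-/

set_option linter.all false

namespace Vale.Agent.P022D.U

open Finset

section soc

variable {B : Type*} [CommRing B]

/-- socle form of freeness: `σ v = 0` forces `v ∈ J N` -/
def Soc (σ : B) (J : Ideal B) (N : Type*) [AddCommGroup N] [Module B N] : Prop :=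
  ∀ v : N, σ • v = 0 → v ∈ J • (⊤ : Submodule B N)

/-- `σ` kills `J N` -/
def Kil (σ : B) (J : Ideal B) (N : Type*) [AddCommGroup N] [Module B N] : Prop :=
  ∀ x ∈ J, ∀ v : N, (σ * x) • v = 0

variable {N : Type*} [AddCommGroup N] [Module B N]

theorem Kil.smul_mem {σ : B} {J : Ideal B} (h : Kil σ J N) {v : N}
    (hv : v ∈ J • (⊤ : Submodule B N)) : σ • v = 0 := by
  refine Submodule.smul_induction_on hv (fun x hx v _ => ?_) (fun a b ha hb => ?_)
  · rw [← mul_smul]; exact h x hx v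
  · rw [smul_add, ha, hb, add_zero]

theorem Kil.mul {σ : B} {J : Ideal B} (h : Kil σ J N) (c : B) : Kil (σ * c) J N := by
  intro x hx v
  have := h (c * x) (J.mul_mem_left c hx) v
  rwa [← mul_assoc] at this

theorem Kil.congr {σ : B} {J : Ideal B} (h : Kil σ J N) {a b : B} (hab : a - b ∈ J) (v : N) :
    (σ * a) • v = (σ * b) • v := by
  have := h _ hab v
  rwa [mul_sub, sub_smul, sub_eq_zero] at this

theorem Kil.sup {σ : B} {J : Ideal B} (h : Kil σ J N) {z : B} (hz : ∀ v : N, (σ * z) • v = 0) :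
    Kil σ (J ⊔ Ideal.span {z}) N := by
  intro x hx v
  obtain ⟨a, ha, b, hb, rfl⟩ := Submodule.mem_sup.1 hx
  obtain ⟨c, rfl⟩ := Ideal.mem_span_singleton'.1 hb
  rw [mul_add, add_smul, h a ha, zero_add, mul_left_comm, mul_smul, hz, smul_zero]

theorem mem_sup_span {J : Ideal B} {z : B} {v : N} :
    v ∈ (J ⊔ Ideal.span {z}) • (⊤ : Submodule B N) ↔
      ∃ a : N, v - z • a ∈ J • (⊤ : Submodule B N) := by
  rw [Submodule.sup_smul]
  constructor
  · intro h
    obtain ⟨b, hb, c, hc, rfl⟩ := Submodule.mem_sup.1 h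
    rw [Submodule.ideal_span_singleton_smul] at hc
    obtain ⟨a, -, rfl⟩ := (Submodule.mem_smul_pointwise_iff_exists _ _ _).1 hc
    exact ⟨a, by simpa using hb⟩
  · rintro ⟨a, ha⟩
    refine Submodule.mem_sup.2 ⟨_, ha, z • a, ?_, by simp⟩
    exact Submodule.smul_mem_smul (Ideal.mem_span_singleton_self z) trivial

theorem Soc.mono {σ : B} {J J' : Ideal B} (h : Soc σ J N) (hJ : J ≤ J') : Soc σ J' N :=
  fun v hv => Submodule.smul_mono_left hJ (h v hv)

theorem Soc.of_mul {σ c : B} {J : Ideal B} (h : Soc (σ * c) J N) : Soc σ J N :=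
  fun v hv => h v (by rw [mul_comm, mul_smul, hv, smul_zero])

/-- the core of Lemma U, on a subgroup `N0` stable under `z` and modulo a submodule `N'` -/
theorem core (N0 : AddSubgroup N) (N' : Submodule B N) (σ z : B) (e m : ℕ) (hm : 1 ≤ m)
    (hz : ∀ v ∈ N0, z • v ∈ N0) (hk : ∀ b ∈ N', σ • b = 0)
    (H : ∀ v ∈ N0, (σ * z ^ (m * (e + 1))) • v = 0 → ∃ a ∈ N0, v - z ^ (e + 1) • a ∈ N')
    (v : N) (hv : v ∈ N0) (h0 : (σ * z ^ (m * (e + 1) + e)) • v = 0) :
    ∃ a ∈ N0, v - z • a ∈ N' := by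
  have hp : ∀ (k : ℕ), ∀ v ∈ N0, z ^ k • v ∈ N0 := by
    intro k
    induction k with
    | zero => intro v hv; simpa using hv
    | succ k ih => intro v hv; rw [pow_succ', mul_smul]; exact hz _ (ih v hv)
  obtain ⟨a, ha, hab⟩ := H (z ^ e • v) (hp e v hv) (by rw [← mul_smul, mul_assoc, ← pow_add, h0])
  have h1 : (σ * z ^ e) • (v - z • a) = 0 := by
    have := hk _ hab
    rw [mul_smul, smul_sub (z ^ e), ← mul_smul (z ^ e) z, ← pow_succ, this]
  obtain ⟨k, hk'⟩ : ∃ k, m * (e + 1) = k + e := ⟨m * (e + 1) - e, by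
    have : e + 1 ≤ m * (e + 1) := Nat.le_mul_of_pos_left _ hm
    omega⟩
  obtain ⟨c, hc, hcb⟩ := H (v - z • a) (N0.sub_mem hv (hz a ha)) (by
    rw [hk', pow_add, mul_left_comm, mul_smul, h1, smul_zero])
  refine ⟨a + z ^ e • c, N0.add_mem ha (hp e c hc), ?_⟩
  have : v - z • (a + z ^ e • c) = v - z • a - z ^ (e + 1) • c := by
    rw [smul_add, ← mul_smul, ← pow_succ']; abel
  rwa [this]

theorem pow_sub_pow_mem {J : Ideal B} {a b : B} (h : a - b ∈ J) (k : ℕ) : a ^ k - b ^ k ∈ J :=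
  Ideal.mem_of_dvd J (sub_dvd_pow_sub_pow a b k) h

/-- **Lemma U.** `w = u z ^ e` modulo `J`, `u` a unit; free over `w` (exponent `m ≥ 2`) implies
free over `z` (exponent `m e`). -/
theorem lemU {σ w z u : B} {J : Ideal B} {e m : ℕ} (he : 1 ≤ e) (hm : 2 ≤ m) (hu : IsUnit u)
    (hK : Kil σ J N) (hw : w - u * z ^ e ∈ J)
    (H : Soc (σ * w ^ (m - 1)) (J ⊔ Ideal.span {w}) N) :
    Soc (σ * z ^ (m * e - 1)) (J ⊔ Ideal.span {z}) N := by
  obtain ⟨e, rfl⟩ : ∃ k, e = k + 1 := ⟨e - 1, by omega⟩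
  obtain ⟨m, rfl⟩ : ∃ k, m = k + 1 := ⟨m - 1, by omega⟩
  intro v hv
  have e1 : (m + 1) * (e + 1) - 1 = m * (e + 1) + e := by
    rw [add_mul, one_mul]; omega
  rw [e1] at hv
  obtain ⟨a, -, ha⟩ := core (⊤ : AddSubgroup N) (J • (⊤ : Submodule B N)) σ z e m (by omega)
    (fun _ _ => trivial) (fun b hb => hK.smul_mem hb) (fun v _ hv => by
      obtain ⟨a, ha⟩ := mem_sup_span.1 (H v (by
        rw [Nat.add_sub_cancel, hK.congr (pow_sub_pow_mem hw m), mul_pow, ← pow_mul,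
          mul_left_comm, mul_smul, mul_comm (e + 1), hv, smul_zero]))
      refine ⟨u • a, trivial, ?_⟩
      have : v - z ^ (e + 1) • u • a = v - w • a + (w - u * z ^ (e + 1)) • a := by
        rw [sub_smul, ← mul_smul, mul_comm u]; abel
      rw [this]
      exact Submodule.add_mem _ ha (Submodule.smul_mem_smul hw trivial)) v trivial hv
  exact mem_sup_span.2 ⟨a, ha⟩

/-- in characteristic two `(x - 1) ^ (2 ^ a) = x ^ (2 ^ a) - 1` -/
theorem sub_one_pow {J : Ideal B} (h2 : (2 : B) ∈ J) (x : B) (a : ℕ) :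
    (x - 1) ^ 2 ^ a - (x ^ 2 ^ a - 1) ∈ J := by
  induction a with
  | zero => simp
  | succ a ih =>
    have h1 := pow_sub_pow_mem ih 2
    have : (x - 1) ^ 2 ^ (a + 1) - (x ^ 2 ^ (a + 1) - 1) =
        (((x - 1) ^ 2 ^ a) ^ 2 - (x ^ 2 ^ a - 1) ^ 2) + 2 * (1 - x ^ 2 ^ a) := by
      rw [pow_succ 2 a, pow_mul, pow_mul]; ring
    rw [this]
    exact J.add_mem h1 (J.mul_mem_right _ h2)

/-- in characteristic two `(x - 1) ^ (2 ^ a - 1)` is the norm element -/
theorem sub_one_pow_norm {J : Ideal B} (h2 : (2 : B) ∈ J) (x : B) (a : ℕ) :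
    (x - 1) ^ (2 ^ a - 1) - ∑ i ∈ range (2 ^ a), x ^ i ∈ J := by
  induction a with
  | zero => simp
  | succ a ih =>
    have hp : 1 ≤ 2 ^ a := Nat.one_le_two_pow
    have e1 : 2 ^ (a + 1) - 1 = (2 ^ a - 1) + 2 ^ a := by rw [pow_succ]; omega
    have e2 : ∑ i ∈ range (2 ^ (a + 1)), x ^ i =
        (∑ i ∈ range (2 ^ a), x ^ i) * (1 + x ^ 2 ^ a) := by
      rw [pow_succ, mul_two, sum_range_add, mul_add, mul_one, sum_mul]
      congr 1
      exact sum_congr rfl fun i _ => by rw [pow_add, mul_comm]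
    have : (x - 1) ^ (2 ^ (a + 1) - 1) - ∑ i ∈ range (2 ^ (a + 1)), x ^ i =
        ((x - 1) ^ (2 ^ a - 1) - ∑ i ∈ range (2 ^ a), x ^ i) * (x - 1) ^ 2 ^ a +
        (∑ i ∈ range (2 ^ a), x ^ i) * ((x - 1) ^ 2 ^ a - (x ^ 2 ^ a - 1)) -
        (∑ i ∈ range (2 ^ a), x ^ i) * 2 := by
      rw [e1, e2, pow_add]; ring
    rw [this]
    exact J.sub_mem (J.add_mem (J.mul_mem_right _ ih) (J.mul_mem_left _ (sub_one_pow h2 x a)))
      (J.mul_mem_left _ h2)

/-- **Lemma U, inert case**: `θ ^ (2 ^ b k) = d` modulo `J`, `k` odd, `d` of exponent `2 ^ a`,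
`a ≥ 1`; the residue ring hypothesis is that `θ - 1` is nilpotent on the ring. -/
theorem lemU_inert {σ θ d : B} {J : Ideal B} {a b k : ℕ} (ha : 1 ≤ a) (hk : Odd k)
    (h2 : (2 : B) ∈ J) (hn : IsNilpotent (2 : B)) (hθ : IsNilpotent (θ - 1))
    (hK : Kil σ J N) (hd : d - θ ^ (2 ^ b * k) ∈ J)
    (H : Soc (σ * (d - 1) ^ (2 ^ a - 1)) (J ⊔ Ideal.span {d - 1}) N) :
    Soc (σ * (θ - 1) ^ (2 ^ (a + b) - 1)) (J ⊔ Ideal.span {θ - 1}) N := by
  set t := θ ^ 2 ^ b with ht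
  have hu : IsUnit (∑ i ∈ range k, t ^ i) := by
    obtain ⟨j, rfl⟩ := hk
    have h1 : (θ - 1) ∣ ∑ i ∈ range (2 * j + 1), t ^ i - ∑ i ∈ range (2 * j + 1), (1 : B) := by
      rw [← sum_sub_distrib]
      refine dvd_sum fun i _ => ?_
      have := sub_dvd_pow_sub_pow θ 1 (2 ^ b * i)
      rwa [one_pow, pow_mul] at this
    obtain ⟨c, hc⟩ := h1
    have e : ∑ i ∈ range (2 * j + 1), t ^ i = 1 + (2 * (j : B) + (θ - 1) * c) := by
      rw [← hc]; simp; ring
    rw [e]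
    exact ((Commute.all _ _).isNilpotent_add ((Commute.all _ _).isNilpotent_mul_right hn)
      ((Commute.all _ _).isNilpotent_mul_right hθ)).isUnit_one_add
  rw [pow_add]
  refine lemU (w := d - 1) (u := ∑ i ∈ range k, t ^ i) Nat.one_le_two_pow
    (by simpa using Nat.pow_le_pow_right (n := 2) (by omega) ha) hu hK ?_ H
  have e : d - 1 - (∑ i ∈ range k, t ^ i) * (θ - 1) ^ 2 ^ b =
      (d - θ ^ (2 ^ b * k)) - (∑ i ∈ range k, t ^ i) * ((θ - 1) ^ 2 ^ b - (θ ^ 2 ^ b - 1)) := by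
    rw [mul_sub (∑ i ∈ range k, t ^ i) ((θ - 1) ^ 2 ^ b), ← ht, geom_sum_mul, pow_mul, ← ht]; ring
  rw [e]
  exact J.sub_mem hd (J.mul_mem_left _ (sub_one_pow h2 θ b))

/-- **Lemma U, split case.** `p` is the projection to the degree zero part of a grading by
`ℤ / 2 ^ a` in which `η` is homogeneous of degree one, `s`, `σ` and `J` of degree zero. Free over
`s η ^ 2` implies free over the pair `(s, η)`. -/
theorem lemU_split {σ s η : B} {J : Ideal B} {a : ℕ} (ha : 1 ≤ a) (h2 : (2 : B) ∈ J)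
    (hK : Kil σ J N) (hη : ∀ v : N, η ^ 2 ^ a • v = v) (p : N →+ N)
    (hpp : ∀ v, p (p v) = p v) (hps : ∀ v, p (s • v) = s • p v) (hpσ : ∀ v, p (σ • v) = σ • p v)
    (hpJ : ∀ v ∈ J • (⊤ : Submodule B N), p v ∈ J • (⊤ : Submodule B N))
    (hpη : ∀ v, ∀ i, 0 < i → i < 2 ^ a → p (η ^ i • p v) = 0)
    (hsum : ∀ v : N, ∃ v0 c : N, v = p v0 + (η - 1) • c)
    (H : Soc (σ * (s * η ^ 2 - 1) ^ (2 ^ a - 1)) (J ⊔ Ideal.span {s * η ^ 2 - 1}) N) :
    Soc (σ * (η - 1) ^ (2 ^ a - 1) * (s - 1) ^ (2 ^ a - 1))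
      (J ⊔ Ideal.span {η - 1} ⊔ Ideal.span {s - 1}) N := by
  obtain ⟨a, rfl⟩ : ∃ k, a = k + 1 := ⟨a - 1, by omega⟩
  have hp1 : 1 ≤ 2 ^ a := Nat.one_le_two_pow
  obtain ⟨e, he⟩ : ∃ e, 2 ^ a = e + 1 := ⟨2 ^ a - 1, by omega⟩
  have hpk : ∀ (k : ℕ) v, p (s ^ k • v) = s ^ k • p v := by
    intro k
    induction k with
    | zero => intro v; simp
    | succ k ih => intro v; rw [pow_succ', mul_smul, hps, ih, mul_smul]
  have hpz : ∀ (k : ℕ) v, p ((s - 1) ^ k • v) = (s - 1) ^ k • p v := by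
    intro k
    induction k with
    | zero => intro v; simp
    | succ k ih =>
      intro v; rw [pow_succ', mul_smul, sub_smul, one_smul, map_sub, hps, ih, mul_smul, sub_smul,
        one_smul]
  set h := s * η ^ 2 with hh
  have hhe : ∀ v : N, h ^ 2 ^ a • v = s ^ 2 ^ a • v := by
    intro v
    rw [hh, mul_pow, ← pow_mul, ← pow_succ', mul_smul, hη]
  have hφ : ∀ v : N, p v = v → p ((∑ i ∈ range (2 ^ a), h ^ i) • v) = v := by
    intro v hv
    rw [he, sum_range_succ', add_smul, map_add, pow_zero, one_smul, hv, sum_smul, map_sum,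
      sum_eq_zero, zero_add]
    intro i hi
    rw [hh, mul_pow, mul_smul, hpk, ← pow_mul, ← hv, hpη _ _ (by omega) (by
      have := mem_range.1 hi
      rw [pow_succ]; omega), smul_zero]
  let N0 : AddSubgroup N := (p - AddMonoidHom.id N).ker
  have hN0 : ∀ v, v ∈ N0 ↔ p v = v := fun v => by
    simp [N0, AddMonoidHom.mem_ker, sub_eq_zero]
  intro v hv
  obtain ⟨v0, c, rfl⟩ := hsum v
  have hn : ∀ v : N, (σ * (η - 1) ^ (2 ^ (a + 1) - 1)) • v =
      σ • (∑ i ∈ range (2 ^ (a + 1)), η ^ i) • v := fun v => by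
    rw [hK.congr (sub_one_pow_norm h2 η (a + 1)), mul_smul]
  have h0 : (σ * (s - 1) ^ (1 * (e + 1) + e)) • p v0 = 0 := by
    have e1 : 1 * (e + 1) + e = 2 ^ (a + 1) - 1 := by rw [pow_succ]; omega
    rw [mul_smul, hn, smul_add, smul_add, smul_comm ((s - 1) ^ _) (η - 1), ← mul_smul _ (η - 1),
      geom_sum_mul, sub_smul, hη, one_smul, sub_self, add_zero, ← hpz] at hv
    have h3 := congrArg p hv
    have hq : 2 ^ (a + 1) = (2 ^ (a + 1) - 1) + 1 := by
      have : 1 ≤ 2 ^ (a + 1) := Nat.one_le_two_pow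
      omega
    rw [hpσ, map_zero, show range (2 ^ (a + 1)) = range ((2 ^ (a + 1) - 1) + 1) by rw [← hq],
      sum_range_succ', add_smul, map_add, pow_zero, one_smul, hpp, sum_smul, map_sum,
      sum_eq_zero (fun i hi => hpη _ _ (by omega) (by have := mem_range.1 hi; omega)),
      zero_add, hpz] at h3
    rw [e1, mul_smul, h3]
  obtain ⟨b, -, hb⟩ := core N0 (J • (⊤ : Submodule B N)) σ (s - 1) e 1 le_rfl
    (fun v hv => by
      rw [hN0] at hv ⊢
      simpa [hv] using hpz 1 v) (fun b hb => hK.smul_mem hb) (fun v hv h1 => by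
      rw [hN0] at hv
      rw [one_mul, ← he, hK.congr (sub_one_pow h2 s a)] at h1
      obtain ⟨c, hc⟩ := mem_sup_span.1 (H v (by
        have e1 : 2 ^ (a + 1) - 1 = (2 ^ a - 1) + 2 ^ a := by rw [pow_succ]; omega
        have h4 : (σ * (h - 1) ^ 2 ^ a) • v = 0 := by
          rw [hK.congr (sub_one_pow h2 h a), mul_smul, sub_smul, hhe, ← sub_smul, ← mul_smul, h1]
        rw [e1, pow_add, mul_left_comm, mul_smul, h4, smul_zero]))
      refine ⟨p c, (hN0 _).2 (hpp c), ?_⟩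
      have h5 := hpJ _ (Submodule.smul_mem _ (∑ i ∈ range (2 ^ a), h ^ i) hc)
      rw [smul_sub, map_sub, hφ v hv, ← mul_smul, geom_sum_mul, sub_smul, hhe, one_smul, map_sub,
        hpk] at h5
      have e2 : v - (s - 1) ^ (e + 1) • p c = v - (s ^ 2 ^ a • p c - p c) -
          ((s - 1) ^ 2 ^ a - (s ^ 2 ^ a - 1)) • p c := by
        rw [← he, sub_smul, sub_smul, one_smul]; abel
      rw [e2]
      exact Submodule.sub_mem _ h5 (Submodule.smul_mem_smul (sub_one_pow h2 s a) trivial))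
    (p v0) ((hN0 _).2 (hpp v0)) h0
  refine mem_sup_span.2 ⟨b, mem_sup_span.2 ⟨c, ?_⟩⟩
  have : p v0 + (η - 1) • c - (s - 1) • b - (η - 1) • c = p v0 - (s - 1) • b := by abel
  rwa [this]

/-- **Fixing the type.** If `N` is free over `(J, z)` and `g (z - z0)` kills `N`, `g = z ^ k`,
`z0 = 0` modulo `J`, then `N / (z - z0) N` is free over `J`. -/
theorem soc_quot {σ z z0 g : B} {J : Ideal B} {k : ℕ} (hK : Kil σ J N) (hz : z0 ∈ J)
    (hg : g - z ^ k ∈ J) (h0 : ∀ v : N, (g * (z - z0)) • v = 0)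
    (H : Soc (σ * z ^ k) (J ⊔ Ideal.span {z}) N) :
    Soc σ J (N ⧸ Ideal.span {z - z0} • (⊤ : Submodule B N)) := by
  intro v hv
  obtain ⟨v, rfl⟩ := Submodule.Quotient.mk_surjective _ v
  rw [← Submodule.Quotient.mk_smul, Submodule.Quotient.mk_eq_zero,
    Submodule.ideal_span_singleton_smul] at hv
  obtain ⟨a, -, ha⟩ := (Submodule.mem_smul_pointwise_iff_exists _ _ _).1 hv
  obtain ⟨b, hb⟩ := mem_sup_span.1 (H v (by
    rw [← hK.congr hg, mul_comm, mul_smul, ← ha, ← mul_smul, h0]))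
  have h1 : v - (z - z0) • b ∈ J • (⊤ : Submodule B N) := by
    have : v - (z - z0) • b = v - z • b + z0 • b := by rw [sub_smul]; abel
    rw [this]
    exact Submodule.add_mem _ hb (Submodule.smul_mem_smul hz trivial)
  have h2 : (Submodule.Quotient.mk v : N ⧸ Ideal.span {z - z0} • (⊤ : Submodule B N)) =
      (Ideal.span {z - z0} • (⊤ : Submodule B N)).mkQ (v - (z - z0) • b) := by
    rw [Submodule.mkQ_apply, Submodule.Quotient.eq]
    simpa using Submodule.smul_mem_smul (Ideal.mem_span_singleton_self (z - z0))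
      (Submodule.mem_top (x := b))
  rw [h2]
  have h3 := Submodule.mem_map_of_mem
    (f := (Ideal.span {z - z0} • (⊤ : Submodule B N)).mkQ) h1
  rw [Submodule.map_smul''] at h3
  exact Submodule.smul_mono le_rfl le_top h3

theorem Kil.quot {σ : B} {J : Ideal B} (hK : Kil σ J N) (N' : Submodule B N) :
    Kil σ J (N ⧸ N') := by
  intro x hx v
  obtain ⟨v, rfl⟩ := Submodule.Quotient.mk_surjective _ v
  rw [← Submodule.Quotient.mk_smul, hK x hx, Submodule.Quotient.mk_zero]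

end soc

end Vale.Agent.P022D.U
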